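import Vale.Agent.P095N.Quot
import Vale.Agent.P095N.QSelf
import Vale.Agent.P095N.Loc
import Vale.Agent.P095N.In
import Vale.Agent.P095N.Out
import Vale.Agent.P095N.InnerN
import Vale.Agent.P095N.CharN

namespace Vale.Agent.Results.P095.EquivariantComplete

universe u v

open Vale.Agent.P095N
open scoped MultiplierAlgebra

/-- Equivariant `𝒵`-stability of arbitrary actions `α` of countable groups `G` on arbitrary
separable C*-algebras `A` (unital or not).  `DimDropsMap ω α H` says that all `I(k, k+1)` have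
unital star homomorphisms into `F_ω(A)^{α|H}`; for `H = ⊥` this is the `𝒵`-stability of `A`, and
for `H = ⊤` the equivariant `𝒵`-stability of `α`.
(1) For every `G`, this holds if and only if `F_ω(A)^{α|H}` has no characters.
(2) If `G` is locally finite, then `α` is equivariantly `𝒵`-stable if and only if `A` is
`𝒵`-stable.
(3) Equivariant `𝒵`-stability passes to overgroups of finite index and to directed unions.
(4) (2) holds for all groups that act locally finitely modulo inner automorphisms. -/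
theorem result (A : Type u) [NonUnitalCStarAlgebra A] [TopologicalSpace.SeparableSpace A]
    (G : Type v) [Group G] [Countable G] (α : G →* (A ≃⋆ₐ[ℂ] A))
    (ω : Ultrafilter ℕ) (hω : (ω : Filter ℕ) ≤ Filter.cofinite) :
    (∀ H : Subgroup G, CharacterFree ω α H ↔ DimDropsMap ω α H) ∧
    ((∀ s : Finset G, Finite (Subgroup.closure (s : Set G))) →
      (DimDropsMap ω α ⊥ ↔ DimDropsMap ω α ⊤)) ∧
    ((∀ s : Finset G, ∃ H K : Subgroup G, (s : Set G) ⊆ K ∧ (H.subgroupOf K).FiniteIndex ∧
        DimDropsMap ω α H) → DimDropsMap ω α ⊤) ∧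
    ((∀ s : Finset G, ∃ H K : Subgroup G, (s : Set G) ⊆ K ∧ (H.subgroupOf K).FiniteIndex ∧
        ∀ g ∈ H, ∃ w ∈ unitary 𝓜(ℂ, A), ∀ a : A,
          ((α g a : A) : 𝓜(ℂ, A)) = w * (a : 𝓜(ℂ, A)) * star w) →
      (DimDropsMap ω α ⊥ ↔ DimDropsMap ω α ⊤)) := by
  have top := dimDropsMap_top quot.{u} qself.{u, v} (loc.{u, v} qself) in_.{u, v} out.{u, v} ω hω α
  refine ⟨fun H => characterFree_iff quot.{u} qself.{u, v} in_.{u, v} out.{u, v} ω hω α H,
    fun hG => ⟨fun h0 => top fun s => ?_, dimDropsMap_mono ω α bot_le⟩, top,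
    fun h => ⟨fun h0 => top fun s => ?_, dimDropsMap_mono ω α bot_le⟩⟩
  · refine ⟨⊥, Subgroup.closure (s : Set G), Subgroup.subset_closure, ?_, h0⟩
    have := hG s
    infer_instance
  · obtain ⟨H, K, h1, h2, h3⟩ := h s
    exact ⟨H, K, h1, h2, induces_inner ω α H h3 h0⟩

end Vale.Agent.Results.P095.EquivariantComplete
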