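import Vale.Agent.P095.Final

namespace Vale.Agent.Results.P095.EquivariantZStability

universe u v

open Vale.Agent.P095

/-- Equivariant `𝒵`-stability of arbitrary actions `α` of countable groups `G` on arbitrary
separable unital C*-algebras `A`.  For a subgroup `H`, `DimDropsEmbed ω α H` says that all
`I(k, k+1)` map unitally into `F_ω(A)^{α|H}`; for `H = ⊥` this is the `𝒵`-stability of `A`, and for
`H = ⊤` the equivariant `𝒵`-stability of `α`.
(1) It is equivalent to the absence of characters of `F_ω(A)^{α|H}`.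
(2) If `G` is locally finite, then `α` is equivariantly `𝒵`-stable if and only if `A` is
`𝒵`-stable.
(3) Equivariant `𝒵`-stability passes to overgroups of finite index and to directed unions.
(4) (2) holds for all groups that act locally finitely modulo inner automorphisms. -/
theorem result (A : Type u) [CStarAlgebra A] [TopologicalSpace.SeparableSpace A]
    (G : Type v) [Group G] [Countable G] (α : G →* (A ≃⋆ₐ[ℂ] A))
    (ω : Ultrafilter ℕ) (hω : (ω : Filter ℕ) ≤ Filter.cofinite) :
    (∀ H : Subgroup G, NoCharacters ω α H ↔ DimDropsEmbed ω α H) ∧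
    ((∀ s : Finset G, Finite (Subgroup.closure (s : Set G))) →
      (DimDropsEmbed ω α ⊥ ↔ DimDropsEmbed ω α ⊤)) ∧
    ((∀ s : Finset G, ∃ H K : Subgroup G, (s : Set G) ⊆ K ∧ (H.subgroupOf K).FiniteIndex ∧
        DimDropsEmbed ω α H) → DimDropsEmbed ω α ⊤) ∧
    ((∀ s : Finset G, ∃ H K : Subgroup G, (s : Set G) ⊆ K ∧ (H.subgroupOf K).FiniteIndex ∧
        ∀ g ∈ H, ∃ w ∈ unitary A, ∀ a, α g a = w * a * star w) →
      (DimDropsEmbed ω α ⊥ ↔ DimDropsEmbed ω α ⊤)) := by
  have key : ∀ H, NoCharacters ω α H ↔ DimDropsEmbed ω α H := noChar_iff ω hω α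
  have main : (∀ s : Finset G, ∃ H K : Subgroup G, (s : Set G) ⊆ K ∧
      (H.subgroupOf K).FiniteIndex ∧ ∀ g ∈ H, ∃ w ∈ unitary A, ∀ a, α g a = w * a * star w) →
      (DimDropsEmbed ω α ⊥ ↔ DimDropsEmbed ω α ⊤) := by
    intro h
    rw [← key, ← key]
    refine ⟨fun h0 => noChar_top ω hω α fun s => ?_, noChar_mono ω α bot_le⟩
    obtain ⟨H, K, h1, h2, h3⟩ := h s
    exact ⟨H, K, h1, h2, noChar_inner ω α H h3 h0⟩
  refine ⟨key, fun hG => main fun s => ?_, fun h => ?_, main⟩
  · refine ⟨⊥, Subgroup.closure (s : Set G), Subgroup.subset_closure, ?_, ?_⟩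
    · have := hG s
      infer_instance
    · intro g hg
      rw [Subgroup.mem_bot] at hg
      subst hg
      refine ⟨1, one_mem _, fun a => ?_⟩
      rw [map_one, star_one, mul_one, one_mul]
      rfl
  · rw [← key]
    refine noChar_top ω hω α fun s => ?_
    obtain ⟨H, K, h1, h2, h3⟩ := h s
    exact ⟨H, K, h1, h2, (key H).2 h3⟩

end Vale.Agent.Results.P095.EquivariantZStability
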